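import Vale.Agent.P078.Any.Assembly
import Vale.Agent.P078.Any.RandomPaving.Main

namespace Vale.Agent.Results.P078.AllMasasQuadraticPaving

open Vale.Agent.P078

theorem result :
    ∃ C : ℝ, ∀ (H : Type) [NormedAddCommGroup H] [InnerProductSpace ℂ H] [CompleteSpace H]
      (M : VonNeumannAlgebra H) (A : StarSubalgebra ℂ (H →L[ℂ] H)), IsMasa M A →
      ∀ ε : ℝ, 0 < ε → ε < 1 → ∃ r : ℕ, (r : ℝ) ≤ C / ε ^ 2 ∧ AllSoPavable M A ε r :=
  quadratic_iff.2 (Any.quadraticPavingSeparating_of_randomPaving Any.randomPavingStatement)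

end Vale.Agent.Results.P078.AllMasasQuadraticPaving
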